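import Claimed.Agent.R282.S34.Defs
import Claimed.Agent.R282.S34.E.Open
import Claimed.Agent.R282.S34.D.Top
import Claimed.Agent.R282.S34.C.Hard
import Claimed.Agent.R282.S34.F.J
import Claimed.Agent.R282.S34.G.Main
import Claimed.Agent.R282.S34.H.Iface

/-!
# Row 282, Secs. 3-4: second-level contracts

`Main.lean` proves Theorem 3.1 from the statements of this file (glue only).

Layers: C (Thm 3.1 (i), Lemmas 3.2, 3.3), D (Lemma 3.4), E (Prop 3.6), K (Sec. 4).
-/

set_option autoImplicit false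

namespace Claimed.Agent.R282

variable {n : ℕ}

/-! ## Layer C: permutation systems, blocks, the exceptional case -/

/-- (C1) Theorem 3.1 (i): independent permutation roots are a forest, hence part of an integral
basis; endpoint balance. -/
theorem s34_thm31A (h : BasicSchedule .A) (m : ℕ) : Thm31A m :=
  c34_thm31A h m

/-- (C2) Lemma 3.2 in label form, two orthogonal blocks of even parity. -/
theorem s34_combine_DD {p q : ℕ} (e : Fin p ⊕ Fin q ≃ Fin n) (hp : Thm31D p) (hq : Thm31D q)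
    (lam xi : Vec n) (θ : Shape n) (L : Lbl lam θ xi) (u₁ u₂ u₃ : WD n)
    (hP : MomentD (resL e (u₁.act lam)) (resL e (u₂.act θ.sum)) (resL e (u₃.act xi)))
    (hQ : MomentD (resR e (u₁.act lam)) (resR e (u₂.act θ.sum)) (resR e (u₃.act xi)))
    (par : InQD (resL e (u₁.act lam + u₂.act θ.sum - u₃.act xi))) :
    HasIntSchedule lam θ xi :=
  c34_combine_DD e hp hq lam xi θ L u₁ u₂ u₃ hP hQ par

/-- (C3) Lemma 3.2 in label form, a permutation block (after the sign change `ε` of its axes) and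
an orthogonal block. -/
theorem s34_combine_AD {p q : ℕ} (e : Fin p ⊕ Fin q ≃ Fin n) (hp : Thm31A p) (hq : Thm31D q)
    (lam xi : Vec n) (θ : Shape n) (L : Lbl lam θ xi) (u₁ u₂ u₃ : WD n) (ε : Fin p → Bool)
    (hP : MomentA (flipV ε (resL e (u₁.act lam))) (flipV ε (resL e (u₂.act θ.sum)))
      (flipV ε (resL e (u₃.act xi))))
    (hQ : MomentD (resR e (u₁.act lam)) (resR e (u₂.act θ.sum)) (resR e (u₃.act xi))) :
    HasIntSchedule lam θ xi :=
  c34_combine_AD e hp hq lam xi θ L u₁ u₂ u₃ ε hP hQ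

/-- (C4) Lemma 3.3 (the exceptional case). -/
theorem s34_hard_case (C : Ctx n) (lam xi : Vec n) (θ : Shape n) (L : Lbl lam θ xi)
    (hno : ¬ HasIntSchedule lam θ xi) : Hard lam θ xi :=
  c34_hard_case C lam xi θ L hno

/-! ## Layer D: closedness and generic shapes -/

/-- (D) Lemma 3.4. -/
theorem s34_reduce_generic (lam xi : Vec n) (θ : Shape n) (L : Lbl lam θ xi)
    (h : ∀ θ' : Shape n, GenericShape θ' → θ'.sum = θ.sum → HasIntSchedule lam θ' xi) :
    HasIntSchedule lam θ xi :=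
  sd_reduce_generic lam xi θ L h

/-! ## Layer E: continuation -/

/-- (E1) compactness: finitely many root lists, frames, relations; bounded integers. -/
theorem s34_aug_closed (lam xi : Vec n) (θ : Shape n) : IsClosed {x : ℝ | AugAt lam θ xi x} :=
  sd_aug_closed lam xi θ

/-- (E2) strictness + common potential + sorting of collisions. -/
theorem s34_aug_open (lam xi : Vec n) (θ : Shape n) (L : Lbl lam θ xi) (G : GenericShape θ)
    (H : Hard lam θ xi) (x : ℝ) (h0 : 0 < x) (h1 : x < 1 / 2) (hx : AugAt lam θ xi x) :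
    ∃ x' : ℝ, 0 ≤ x' ∧ x' < x ∧ AugAt lam θ xi x' :=
  e34_aug_open lam xi θ L G H x h0 h1 hx

/-! ## Layer K: the comparison count -/

/-- (K-1) all switches of the exceptional schedule are at interior times (also: strict gaps and
totals; see `Plan`). -/
theorem s34_exc_interior (lam xi : Vec n) (θ : Shape n) (w0 : WD n) (l : List (ℝ × RootD n))
    (P : Finset (Fin n)) (X : ExcCtx lam θ xi w0 l P) :
    ∀ p ∈ l, 0 < p.1 ∧ p.1 < (θ.length : ℝ) :=
  s34f_exc_interior lam xi θ w0 l P X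

/-- (K0) `J(0+) ≥ R - p_λ - p_μ` (direct link (i)). -/
theorem s34_J_start (lam xi : Vec n) (θ : Shape n) (w0 : WD n) (l : List (ℝ × RootD n))
    (P : Finset (Fin n)) (X : ExcCtx lam θ xi w0 l P) :
    crossSum P (fun _ _ => 1) - crossSum P (jTie lam) - crossSum P (jTie (w0.act θ.sum))
      ≤ JPlus θ ⟨w0.act, lam⟩ l P 0 0 :=
  s34f_J_start lam xi θ w0 l P X

/-- (K1) `J(1-) ≤ p_ξ` (direct link (ii)). -/
theorem s34_J_end (lam xi : Vec n) (θ : Shape n) (w0 : WD n) (l : List (ℝ × RootD n))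
    (P : Finset (Fin n)) (X : ExcCtx lam θ xi w0 l P) :
    JMinus θ ⟨w0.act, lam⟩ l P n θ.length
      ≤ crossSum P (jTie ((runSw θ ⟨w0.act, lam⟩ l).pos θ θ.length)) :=
  s34f_J_end lam xi θ w0 l P X

/-- (K2) no loss between two consecutive switch times (direct link (iii)). -/
theorem s34_J_between (lam xi : Vec n) (θ : Shape n) (w0 : WD n) (l : List (ℝ × RootD n))
    (P : Finset (Fin n)) (X : ExcCtx lam θ xi w0 l P) (s s' : ℝ) (h0 : 0 ≤ s) (hs : s < s')
    (h1 : s' ≤ (θ.length : ℝ)) (hno : ∀ p ∈ l, ¬ (s < p.1 ∧ p.1 < s')) :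
    JPlus θ ⟨w0.act, lam⟩ l P (cntLe l s) s ≤ JMinus θ ⟨w0.act, lam⟩ l P (cntLe l s) s' :=
  s34f_J_between lam xi θ w0 l P X s s' h0 hs h1 hno

/-- (K3) Prop 4.4: monotonicity at a knot. -/
theorem s34_J_knot (lam xi : Vec n) (θ : Shape n) (w0 : WD n) (l : List (ℝ × RootD n))
    (P : Finset (Fin n)) (X : ExcCtx lam θ xi w0 l P) (τ : ℝ) (hτ : ∃ p ∈ l, p.1 = τ) :
    JMinus θ ⟨w0.act, lam⟩ l P (cntLt l τ) τ ≤ JPlus θ ⟨w0.act, lam⟩ l P (cntLe l τ) τ :=
  h34_J_knot lam xi θ w0 l P X τ hτ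

/-- (K4) Prop 4.2: the strict comparison count. -/
theorem s34_strict_count (C : Ctx n) (lam xi : Vec n) (θ : Shape n) (w0 : WD n)
    (l : List (ℝ × RootD n)) (P : Finset (Fin n)) (X : ExcCtx lam θ xi w0 l P)
    (hno : ¬ HasIntSchedule lam θ xi) :
    crossSum P (jTie lam) + crossSum P (jTie (w0.act θ.sum))
      + crossSum P (jTie ((runSw θ ⟨w0.act, lam⟩ l).pos θ θ.length))
      < crossSum P (fun _ _ => 1) := by
  refine g4_strict_count lam xi θ w0 l P X C.s26D ?_ ?_
  · intro p q e u₁ u₂ u₃ ε hp hA hD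
    have hpq : p + q = n := by simpa using Fintype.card_congr e
    exact hno (s34_combine_AD e (s34_thm31A C.b22A p) (C.ih q (by omega)) lam xi θ X.lbl u₁ u₂ u₃ ε
      hA hD)
  · intro p q e u₁ u₂ u₃ hp hq hL hR hpar
    have hpq : p + q = n := by simpa using Fintype.card_congr e
    exact hno (s34_combine_DD e (C.ih p (by omega)) (C.ih q (by omega)) lam xi θ X.lbl u₁ u₂ u₃
      hL hR hpar)

end Claimed.Agent.R282
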