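import Claimed.Agent.R282.S34.Defs

/-!
# Row 282, Secs. 3-4: definitions for the PERTURBATION LEMMA (`LinkBase`)

Split off from `S34/Link.lean` (same names, same text) so that package E can prove
`s34_link_of_base` in files imported by `S34/Link.lean`.
-/

set_option autoImplicit false

namespace Claimed.Agent.R282

variable {n : ℕ}

/-- linear part of (3.3): `d^G_i = - ∑_{j<i} d_j β_j·β_i - d_i` -/
def gapLin (d : List ℝ) (l : List (ℝ × RootD n)) (i : ℕ) (β : RootD n) : ℝ :=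
  - dot (relSum (d.take i) l) β.vec - d.getD i 0

/-- level function of the `i`-th switch (`i = 0, 1, …`), for the root `β = β_i` -/
def levFn (θ : Shape n) (S : SwState n) (l : List (ℝ × RootD n)) (i : ℕ) (β : RootD n) (t : ℝ) : ℝ :=
  (stAt θ S l i).coeff θ t β

/-- An exact schedule with `n+1` switches at the half-integral base point, together with an
orientation `r` of the primitive relation along which it can be moved.
The coefficients will move in the direction `+ r`. -/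
structure LinkBase (lam : Vec n) (θ : Shape n) (xi : Vec n) (w0 : WD n)
    (l : List (ℝ × RootD n)) (r : List ℤ) : Prop where
  sched : IsSchedule lam θ xi w0 l
  len : l.length = n + 1
  gen : SwGenQ l
  rel : IsPrimRel r l
  half : List.Forall₂ (fun (m : ℝ) (a : ℤ) => ∃ z : ℤ, m + (1 / 2) * a = z)
    (swCoeffs θ ⟨w0.act, lam⟩ l) r
  tot : ∀ a ∈ swTotals θ ⟨w0.act, lam⟩ l, 0 < a
  time : ∀ (i : ℕ) (hi : i < l.length), (0 < l[i].1 ∧ l[i].1 < (θ.length : ℝ)) ∨
    (l[i].1 = 0 ∧ 0 < r.getD i 0) ∨ (l[i].1 = (θ.length : ℝ) ∧ r.getD i 0 < 0)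
  gap : ∀ (i : ℕ) (hi : i < l.length),
    0 < (stAt θ ⟨w0.act, lam⟩ l i).gap θ l[i].1 l[i].2 ∨
    ((stAt θ ⟨w0.act, lam⟩ l i).gap θ l[i].1 l[i].2 = 0 ∧
      0 ≤ gapLin (r.map (fun z => (z : ℝ))) l i l[i].2)
  ord : ∀ (i j : ℕ) (hi : i < l.length) (hj : j < l.length), i < j → l[i].1 = l[j].1 →
    dot l[i].2.vec l[j].2.vec = 0 ∨
    ((∀ t, levFn θ ⟨w0.act, lam⟩ l i l[i].2 t = levFn θ ⟨w0.act, lam⟩ l j l[j].2 t) ∧
      r.getD i 0 ≤ r.getD j 0)

end Claimed.Agent.R282
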