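import Claimed.Agent.R282.S34.Defs
import Claimed.Agent.R282.S34.E.LinkPf
import Claimed.Agent.R282.S34.PR.Main

/-!
# Row 282, Secs. 3-4: the two interfaces between packages

* `LinkBase` / `s34_link_of_base` : the PERTURBATION LEMMA in the form consumed by packages F and H
  (owner of the proof: package E).  It replaces "local link (a)(b)(c)" of the paper.
  The definitions `gapLin`, `levFn`, `LinkBase` now live in `S34/LinkDefs.lean` (same text).
* `s34_profile_rigidity` : Lemma 4.1 as a self-contained statement (package G6), consumed by G.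
-/

set_option autoImplicit false

namespace Claimed.Agent.R282

variable {n : ℕ}

/-- PERTURBATION LEMMA (package E; consumed by F and H). -/
theorem s34_link_of_base (lam xi : Vec n) (θ : Shape n) (G : GenericShape θ) (w0 : WD n)
    (l : List (ℝ × RootD n)) (r : List ℤ) (B : LinkBase lam θ xi w0 l r) :
    HasLink lam θ xi :=
  e34_link_of_base lam xi θ G w0 l r B

/-! ## profile rigidity -/

/-- multiplicity of the level `a` -/
noncomputable def lvlMult {r : ℕ} (x : Fin r → ℝ) (a : ℝ) : ℕ :=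
  (Finset.univ.filter fun j => x j = a).card

/-- number of coincidences of two label vectors (`= ∑_a m(a) m'(a)`) -/
noncomputable def tieCount {r h : ℕ} (x : Fin r → ℝ) (y : Fin h → ℝ) : ℕ :=
  (Finset.univ.filter fun p : Fin r × Fin h => x p.1 = y p.2).card

/-- an irreducible Hermitian zero-sum triple with spectra `x 0, x 1, x 2` -/
structure IrrTriple (r : ℕ) (x : Fin 3 → Fin r → ℝ) (X : Fin 3 → Matrix (Fin r) (Fin r) ℂ) :
    Prop where
  orbit : ∀ i, ∃ g : Matrix.unitaryGroup (Fin r) ℂ,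
    X i = g.1 * Matrix.diagonal (fun j => ((x i j : ℝ) : ℂ)) * g.1.conjTranspose
  sum : X 0 + X 1 + X 2 = 0
  irr : ∀ Z : Matrix (Fin r) (Fin r) ℂ, (∀ i, Z * X i = X i * Z) → ∃ c : ℂ, Z = c • 1

/-- Lemma 4.1 (profile rigidity). -/
theorem s34_profile_rigidity {r h : ℕ} (hr : 0 < r) (hh : 0 < h)
    (x : Fin 3 → Fin r → ℝ) (y : Fin 3 → Fin h → ℝ)
    (X : Fin 3 → Matrix (Fin r) (Fin r) ℂ) (Y : Fin 3 → Matrix (Fin h) (Fin h) ℂ)
    (HX : IrrTriple r x X) (HY : IrrTriple h y Y)
    (nX : ∑ i, tieCount (x i) (x i) = r ^ 2) (nY : ∑ i, tieCount (y i) (y i) = h ^ 2)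
    (prop : ∀ i a, h * lvlMult (x i) a = r * lvlMult (y i) a) : r = h :=
  PR.pr_main hr hh x y X Y HX.orbit HX.sum HX.irr HY.orbit HY.sum HY.irr nX nY prop

end Claimed.Agent.R282
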