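import Claimed.Agent.R282.S34.Contracts

/-!
# Row 282, Secs. 3-4: Theorem 3.1 from the second-level contracts (glue only)
-/

set_option autoImplicit false

namespace Claimed.Agent.R282

variable {n : ℕ}

theorem s34_swIntegral_iff (θ : Shape n) (S : SwState n) (l : List (ℝ × RootD n)) :
    SwIntegral θ S l ↔ ∀ m ∈ swCoeffs θ S l, ∃ z : ℤ, m = z := by
  induction l generalizing S with
  | nil => simp [SwIntegral, swCoeffs]
  | cons p l ih => simp [SwIntegral, swCoeffs, ih]

theorem s34_aug_zero (lam xi : Vec n) (θ : Shape n) (h : AugAt lam θ xi 0) :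
    HasIntSchedule lam θ xi := by
  obtain ⟨w0, l, r, hs, -, -, -, hF⟩ := h
  refine ⟨w0, l, hs, (s34_swIntegral_iff _ _ _).2 ?_⟩
  generalize swCoeffs θ ⟨w0.act, lam⟩ l = cs at hF
  induction hF with
  | nil => simp
  | cons h _ ih =>
    intro m hm
    rcases List.mem_cons.1 hm with rfl | hm
    · obtain ⟨z, hz⟩ := h
      exact ⟨z, by simpa using hz⟩
    · exact ih m hm

/-- Prop 3.6 -/
theorem s34_no_link (lam xi : Vec n) (θ : Shape n) (L : Lbl lam θ xi) (G : GenericShape θ)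
    (H : Hard lam θ xi) (hno : ¬ HasIntSchedule lam θ xi) : ¬ HasLink lam θ xi := by
  rintro ⟨x1, h0, h1, hx1⟩
  have hSc : IsCompact ({x : ℝ | AugAt lam θ xi x} ∩ Set.Icc 0 x1) :=
    (isCompact_Icc).inter_left (s34_aug_closed lam xi θ)
  have hSne : ({x : ℝ | AugAt lam θ xi x} ∩ Set.Icc 0 x1).Nonempty := ⟨x1, hx1, h0, le_rfl⟩
  obtain ⟨x0, hx0S, hmin⟩ := hSc.exists_isLeast hSne
  rcases eq_or_lt_of_le hx0S.2.1 with h | h
  · exact hno (s34_aug_zero _ _ _ (h ▸ hx0S.1))
  · obtain ⟨x', h0', hlt, hx'⟩ :=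
      s34_aug_open lam xi θ L G H x0 h (lt_of_le_of_lt hx0S.2.2 h1) hx0S.1
    have := hmin ⟨hx', h0', (hlt.le.trans hx0S.2.2)⟩
    linarith

theorem s34_cnt_eq (l : List (ℝ × RootD n)) (s τ : ℝ)
    (h : ∀ p ∈ l, (p.1 ≤ s ↔ p.1 < τ)) : cntLe l s = cntLt l τ := by
  unfold cntLe cntLt
  congr 1
  apply List.filter_congr
  intro p hp
  simp [h p hp]

theorem s34_cntLe_all (l : List (ℝ × RootD n)) (s : ℝ) (h : ∀ p ∈ l, p.1 ≤ s) :
    cntLe l s = l.length := by
  unfold cntLe
  rw [List.filter_eq_self.2]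
  intro p hp
  simp [h p hp]

theorem s34_cntLe_none (l : List (ℝ × RootD n)) (s : ℝ) (h : ∀ p ∈ l, s < p.1) :
    cntLe l s = 0 := by
  unfold cntLe
  rw [List.filter_eq_nil_iff.2]
  · rfl
  · intro p hp
    simp [h p hp]

/-- the chain `J(0+) ≤ J(T-)` -/
theorem s34_J_chain (lam xi : Vec n) (θ : Shape n) (w0 : WD n) (l : List (ℝ × RootD n))
    (P : Finset (Fin n)) (X : ExcCtx lam θ xi w0 l P) :
    JPlus θ ⟨w0.act, lam⟩ l P 0 0 ≤ JMinus θ ⟨w0.act, lam⟩ l P n θ.length := by
  classical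
  have hint := s34_exc_interior lam xi θ w0 l P X
  set E : Finset ℝ := insert 0 (l.map Prod.fst).toFinset with hE
  have hmemE : ∀ p ∈ l, p.1 ∈ E := fun p hp => by
    simp only [hE, Finset.mem_insert, List.mem_toFinset, List.mem_map]
    exact Or.inr ⟨p, hp, rfl⟩
  have hEcases : ∀ τ ∈ E, τ = 0 ∨ ∃ p ∈ l, p.1 = τ := fun τ hτ => by
    simp only [hE, Finset.mem_insert, List.mem_toFinset, List.mem_map] at hτ
    exact hτ
  have hTpos : (0 : ℝ) < θ.length := by
    have := X.gen.ne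
    have : 0 < θ.length := List.length_pos_iff.2 this
    exact_mod_cast this
  have hEnn : ∀ τ ∈ E, 0 ≤ τ ∧ τ < (θ.length : ℝ) := fun τ hτ => by
    rcases hEcases τ hτ with rfl | ⟨p, hp, rfl⟩
    · exact ⟨le_rfl, hTpos⟩
    · exact ⟨(hint p hp).1.le, (hint p hp).2⟩
  -- main induction
  have key : ∀ N : ℕ, ∀ τ ∈ E, (E.filter (· < τ)).card = N →
      JPlus θ ⟨w0.act, lam⟩ l P 0 0 ≤ JPlus θ ⟨w0.act, lam⟩ l P (cntLe l τ) τ := by
    intro N
    induction N using Nat.strong_induction_on with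
    | _ N ih =>
      intro τ hτ hN
      rcases hEcases τ hτ with rfl | hp
      · rw [s34_cntLe_none l 0 (fun p hp => (hint p hp).1)]
      · obtain ⟨p, hpl, hpτ⟩ := hp
        have hτ0 : 0 < τ := hpτ ▸ (hint p hpl).1
        have hne : (E.filter (· < τ)).Nonempty :=
          ⟨0, Finset.mem_filter.2 ⟨by simp [hE], hτ0⟩⟩
        set s := (E.filter (· < τ)).max' hne with hs
        have hsmem : s ∈ E.filter (· < τ) := Finset.max'_mem _ _
        have hsE : s ∈ E := (Finset.mem_filter.1 hsmem).1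
        have hsτ : s < τ := (Finset.mem_filter.1 hsmem).2
        have hcard : (E.filter (· < s)).card < N := by
          rw [← hN]
          apply Finset.card_lt_card
          refine ⟨fun a ha => ?_, fun hsub => ?_⟩
          · have := Finset.mem_filter.1 ha
            exact Finset.mem_filter.2 ⟨this.1, this.2.trans hsτ⟩
          · have := Finset.mem_filter.1 (hsub hsmem)
            exact lt_irrefl _ this.2
        have h1 := ih _ hcard s hsE rfl
        have hmax : ∀ q ∈ l, q.1 < τ → q.1 ≤ s := fun q hq hlt =>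
          Finset.le_max' _ _ (Finset.mem_filter.2 ⟨hmemE q hq, hlt⟩)
        have h2 := s34_J_between lam xi θ w0 l P X s τ (hEnn s hsE).1 hsτ (hEnn τ hτ).2.le
          (fun q hq hh => absurd (hmax q hq hh.2) (not_le.2 hh.1))
        have hc : cntLe l s = cntLt l τ :=
          s34_cnt_eq l s τ (fun q hq => ⟨fun h => h.trans_lt hsτ, hmax q hq⟩)
        have h3 := s34_J_knot lam xi θ w0 l P X τ ⟨p, hpl, hpτ⟩
        rw [← hc] at h3
        exact h1.trans (h2.trans h3)
  have hneE : E.Nonempty := ⟨0, by simp [hE]⟩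
  set s := E.max' hneE with hs
  have hsE : s ∈ E := Finset.max'_mem _ _
  have h1 := key _ s hsE rfl
  have hall : ∀ q ∈ l, q.1 ≤ s := fun q hq => Finset.le_max' _ _ (hmemE q hq)
  have h2 := s34_J_between lam xi θ w0 l P X s θ.length (hEnn s hsE).1 (hEnn s hsE).2 le_rfl
    (fun q hq hh => absurd (hall q hq) (not_le.2 hh.1))
  rw [s34_cntLe_all l s hall, X.exc.len] at h2
  rw [s34_cntLe_all l s hall, X.exc.len] at h1
  exact h1.trans h2

/-- the exceptional configuration is contradictory (end of Sec. 4) -/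
theorem s34_exc_false (C : Ctx n) (lam xi : Vec n) (θ : Shape n) (w0 : WD n)
    (l : List (ℝ × RootD n)) (P : Finset (Fin n)) (X : ExcCtx lam θ xi w0 l P)
    (hno : ¬ HasIntSchedule lam θ xi) : False := by
  have h0 := s34_J_start lam xi θ w0 l P X
  have h1 := s34_J_end lam xi θ w0 l P X
  have h2 := s34_J_chain lam xi θ w0 l P X
  have h3 := s34_strict_count C lam xi θ w0 l P X hno
  linarith

theorem s34_isSchedule_of_isSched {lam xi : Vec n} {θ : Shape n} {w0 : WD n}
    {l : List (ℝ × RootD n)} (h : IsSched .D lam θ xi w0 l) : IsSchedule lam θ xi w0 l :=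
  ⟨h.times_mem, h.sorted, h.valid, by obtain ⟨w, -, hw⟩ := h.endpoint; exact ⟨w, hw⟩⟩

theorem s34_len_le_of_indep {l : List (ℝ × RootD n)} (h : SwIndep l) : l.length ≤ n := by
  have := h.fintype_card_le_finrank
  simpa using this

/-- the induction step of Theorem 3.1 (ii) -/
theorem s34_step (C : Ctx n) : Thm31D n := by
  intro lam xi θ L hM
  apply s34_reduce_generic lam xi θ L
  intro θ' G hsum
  by_contra hno
  have L' : Lbl lam θ' xi :=
    ⟨G.ne, G.dom, L.wl, hsum ▸ L.wm, L.wx, hsum ▸ L.hQ, hsum ▸ L.hz⟩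
  obtain ⟨w0, l, hs, hind, hnb⟩ := C.b22D n lam θ'.sum xi θ' G.ne G.dom rfl (hsum ▸ hM)
  have hs' := s34_isSchedule_of_isSched hs
  have H := s34_hard_case C lam xi θ' L' hno
  obtain ⟨P, hP⟩ := H w0 l hs' (s34_len_le_of_indep hind)
  exact s34_exc_false C lam xi θ' w0 l P
    ⟨L', G, hs', hnb, hP, H, s34_no_link lam xi θ' L' G H hno⟩ hno

/-- **Theorem 3.1 (ii)** from the contracts of Sec. 2. -/
theorem s34_thm31 (b22D : BasicSchedule .D) (b22A : BasicSchedule .A) (s26D : SchedMoment .D)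
    (s26A : SchedMoment .A) (n : ℕ) : Thm31D n := by
  induction n using Nat.strong_induction_on with
  | _ n ih => exact s34_step ⟨b22D, b22A, s26D, s26A, ih⟩

/-- the form consumed by `Top` -/
theorem thm31 (b22D : BasicSchedule .D) (b22A : BasicSchedule .A) (s26D : SchedMoment .D)
    (s26A : SchedMoment .A) (n : ℕ) (lam xi : Vec n) (θ : Shape n) (hne : θ ≠ [])
    (hdom : ∀ v ∈ θ, Dom v) (wl : IsWtD lam) (wm : IsWtD θ.sum) (wx : IsWtD xi)
    (hQ : InQD (lam + θ.sum - xi))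
    (hz : (Finset.univ.filter fun i => θ.sum i = 0).card ≤ 1)
    (hM : MomentD lam θ.sum xi) : HasIntSchedule lam θ xi :=
  s34_thm31 b22D b22A s26D s26A n lam xi θ ⟨hne, hdom, wl, wm, wx, hQ, hz⟩ hM

end Claimed.Agent.R282
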